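import Vale.Agent.P144N58.Gks

/-!
Monotonicity in the domain of the rescaled spin correlations.
-/

namespace Vale.Agent.P144N58

open Finset Vale.Agent.P144 Vale.Agent.P144.H436

variable {J lam β : ℝ} {V : Finset Site → ℝ}

theorem energy_flip (hV : IsPotential V) (P : Finset Site → Prop) (σ : Config) :
    energy J lam V P (fun x => !(σ x)) = energy J lam V P σ := by
  unfold energy
  refine congrArg _ (finsum_congr fun A => finsum_congr fun _ => ?_)
  change Phi J lam V A * _ = Phi J lam V A * _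
  by_cases h : Phi J lam V A = 0
  · rw [h, zero_mul, zero_mul]
  · have he : Even A.card := by
      by_cases hv : V A = 0
      · have he : IsEdge A := by
          by_contra he
          exact h (by simp [Phi, he, hv])
        obtain ⟨u, v, huv, rfl⟩ := he
        rw [card_pair (by rintro rfl; rw [dsq_self] at huv; omega)]
        exact even_two
      · exact hV.even A hv
    simp only [sp_not]
    rw [prod_neg, he.neg_one_pow, one_mul]

/-- The minus boundary condition is the plus boundary condition up to a sign. -/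
theorem gibbs_minus (hV : IsPotential V) (Λ : Finset Site) {n : ℕ} (x : Fin n → Site) :
    gibbs J lam V β (some fun _ => false) Λ (fun σ => ∏ i, sp (σ (x i)))
      = (-1) ^ n * gibbs J lam V β (some fun _ => true) Λ (fun σ => ∏ i, sp (σ (x i))) := by
  have key : ∀ G : Config → ℝ, ∑ T ∈ Λ.powerset, G (ext Λ (fun _ => false) T)
      = ∑ T ∈ Λ.powerset, G fun y => !(ext Λ (fun _ => true) T y) := by
    intro G
    refine sum_nbij' (fun T => Λ \ T) (fun T => Λ \ T) (fun T _ => mem_powerset.2 sdiff_subset)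
      (fun T _ => mem_powerset.2 sdiff_subset)
      (fun T hT => Finset.sdiff_sdiff_eq_self (mem_powerset.1 hT))
      (fun T hT => Finset.sdiff_sdiff_eq_self (mem_powerset.1 hT)) fun T _ => ?_
    congr 1
    funext y
    unfold P144.ext
    by_cases hy : y ∈ Λ <;> simp [hy]
  unfold gibbs P144.expect
  simp only
  rw [key fun σ => (∏ i, sp (σ (x i))) *
      Real.exp (-β * energy J lam V (fun A => (A ∩ Λ).Nonempty) σ),
    key fun σ => Real.exp (-β * energy J lam V (fun A => (A ∩ Λ).Nonempty) σ)]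
  simp only [energy_flip hV, sp_not, prod_neg, card_univ, Fintype.card_fin, mul_assoc, ← mul_sum,
    mul_div_assoc]

theorem gks_one {ι : Type*} [Fintype ι] [DecidableEq ι] {H f : (ι → Bool) → ℝ} (hH : Gin H)
    (hf : Gin f) : 0 ≤ ∑ s, f s * Real.exp (H s) := by
  have h1 := MP.nonneg nnm2 (hf.mul hH.exp).1
  rw [sum_pairs (fun s t => f s * Real.exp (H s) + f t * Real.exp (H t))] at h1
  simp only [Finset.sum_add_distrib, Finset.sum_const, Finset.card_univ, nsmul_eq_mul,
    ← Finset.mul_sum] at h1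
  have hc : (0:ℝ) < (Fintype.card (ι → Bool) : ℝ) := by exact_mod_cast Fintype.card_pos
  exact nonneg_of_mul_nonneg_right (a := 2 * (Fintype.card (ι → Bool) : ℝ)) (by linarith)
    (by positivity)

/-- First Griffiths inequality, free boundary condition. -/
theorem free_nonneg (hV : IsPotential V) (hβ : 0 ≤ β) (hP : ∀ A, 0 ≤ Phi J lam V A)
    (Λ : Finset Site) {n : ℕ} (x : Fin n → Site) :
    0 ≤ gibbs J lam V β none Λ (fun σ => ∏ i, sp (σ (x i))) := by
  classical
  obtain ⟨S, hS⟩ := exists_supp hV J lam Λ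
  have e1 := energy_eq (P := fun A => A ⊆ Λ) (fun A hA hs => hS A hA (Or.inl hs)) β
  unfold gibbs P144.expect
  simp only
  refine div_nonneg ?_ (sum_nonneg fun _ _ => (Real.exp_pos _).le)
  rw [sum_ext Λ _ fun σ => (∏ i, sp (σ (x i))) * Real.exp (-β * energy J lam V (· ⊆ Λ) σ)]
  exact gks_one ((gin_sum S fun A => by
    split_ifs; exacts [mul_nonneg hβ (hP A), le_rfl]).congr fun s => (e1 _).symm)
    (Gin.prod _ fun i _ => gin_exs _)

theorem gibbs_mul (b : Option Config) (Λ : Finset Site) (c : ℝ) (F : Config → ℝ) :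
    gibbs J lam V β b Λ (fun σ => c * F σ) = c * gibbs J lam V β b Λ F := by
  cases b <;> simp only [gibbs, P144.expect, mul_assoc, ← mul_sum, mul_div_assoc]

theorem corr_spin (D : Set ℂ) (b : Option (ℝ → Config)) (a : ℝ) {n : ℕ} (x : Fin n → ℂ) :
    corr a (inDom J lam V β D b a) ⟨n, 0, x, ![], ![]⟩ = (a ^ (-(1 / 8) : ℝ)) ^ n *
      gibbs J lam V β (b.map fun η => η a) (disc D a) fun σ => ∏ i, sp (σ (fl a (x i))) := by
  unfold corr inDom
  rw [← gibbs_mul]
  simp only [univ_eq_empty, prod_empty, mul_one, prod_mul_distrib, prod_const, card_univ,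
    Fintype.card_fin, card_empty, pow_zero]

theorem sites_finite {D : Set ℂ} (hD : Bornology.IsBounded D) {a : ℝ} (ha : 0 < a) :
    (sites D a).Finite := by
  obtain ⟨R, hR⟩ := hD.exists_norm_le
  refine ((Set.finite_Icc (-⌈R / a⌉) ⌈R / a⌉).prod (Set.finite_Icc (-⌈R / a⌉) ⌈R / a⌉)).subset
    fun y hy => ?_
  have h1 : |a * y.1| ≤ R := (Complex.abs_re_le_norm _).trans (hR _ hy)
  have h2 : |a * y.2| ≤ R := (Complex.abs_im_le_norm _).trans (hR _ hy)
  have k : ∀ z : ℤ, |a * z| ≤ R → z ∈ Set.Icc (-⌈R / a⌉) ⌈R / a⌉ := by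
    intro z hz
    rw [abs_mul, abs_of_pos ha, mul_comm, ← le_div_iff₀ ha] at hz
    have h3 : |z| ≤ ⌈R / a⌉ := by exact_mod_cast hz.trans (Int.le_ceil _)
    exact abs_le.1 h3
  exact ⟨k _ h1, k _ h2⟩

theorem mem_disc {D : Set ℂ} (hD : Bornology.IsBounded D) {a : ℝ} (ha : 0 < a) {y : Site} :
    y ∈ disc D a ↔ (⟨a * y.1, a * y.2⟩ : ℂ) ∈ D := by
  unfold disc
  rw [dif_pos (sites_finite hD ha), Set.Finite.mem_toFinset]
  rfl

theorem disc_mono {D D' : Set ℂ} (hD : Bornology.IsBounded D') (h : D ⊆ D') {a : ℝ} (ha : 0 < a) :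
    disc D a ⊆ disc D' a := fun _ hy =>
  (mem_disc hD ha).2 (h ((mem_disc (hD.subset h) ha).1 hy))

/-- For small mesh the site below an interior point is a site of the domain. -/
theorem fl_mem {D : Set ℂ} (hD : Bornology.IsBounded D) {z : ℂ} (hz : D ∈ nhds z) :
    ∀ᶠ a in nhdsWithin (0:ℝ) (Set.Ioi 0), fl a z ∈ disc D a := by
  obtain ⟨ε, hε, hb⟩ := Metric.mem_nhds_iff.1 hz
  filter_upwards [Ioo_mem_nhdsGT (half_pos hε)] with a ha
  refine (mem_disc hD ha.1).2 (hb ?_)
  have k : ∀ t : ℝ, |a * (⌊t / a⌋ : ℤ) - t| ≤ a := by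
    intro t
    have h1 := mul_le_mul_of_nonneg_left (Int.floor_le (t / a)) ha.1.le
    have h2 := mul_le_mul_of_nonneg_left (Int.lt_floor_add_one (t / a)).le ha.1.le
    rw [mul_div_cancel₀ _ ha.1.ne'] at h1 h2
    rw [abs_le]
    constructor <;> linarith
  rw [Metric.mem_ball, dist_eq_norm]
  refine (Complex.norm_le_abs_re_add_abs_im _).trans_lt ?_
  have h1 := k z.re
  have h2 := k z.im
  simp only [Complex.sub_re, Complex.sub_im, fl]
  linarith [ha.2]

theorem corr_free (hV : IsPotential V) (hβ : 0 ≤ β) (hP : ∀ A, 0 ≤ Phi J lam V A) {D D' : Set ℂ}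
    (hD : Bornology.IsBounded D') (h : D ⊆ D') {n : ℕ} {x : Fin n → ℂ} (hx : ∀ i, D ∈ nhds (x i)) :
    ∀ᶠ a in nhdsWithin (0:ℝ) (Set.Ioi 0), corr a (inDom J lam V β D none a) ⟨n, 0, x, ![], ![]⟩
      ≤ corr a (inDom J lam V β D' none a) ⟨n, 0, x, ![], ![]⟩ := by
  filter_upwards [Filter.eventually_all.2 fun i => fl_mem (hD.subset h) (hx i),
    self_mem_nhdsWithin] with a ha h0
  rw [corr_spin, corr_spin]
  exact mul_le_mul_of_nonneg_left (mono_free hV hβ hP (disc_mono hD h h0) _ ha)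
    (pow_nonneg (Real.rpow_nonneg (le_of_lt h0) _) _)

theorem corr_plus (hV : IsPotential V) (hβ : 0 ≤ β) (hP : ∀ A, 0 ≤ Phi J lam V A) {D D' : Set ℂ}
    (hD : Bornology.IsBounded D') (h : D ⊆ D') {n : ℕ} (x : Fin n → ℂ) {a : ℝ} (ha : 0 < a) :
    corr a (inDom J lam V β D' (some fun _ _ => true) a) ⟨n, 0, x, ![], ![]⟩
      ≤ corr a (inDom J lam V β D (some fun _ _ => true) a) ⟨n, 0, x, ![], ![]⟩ := by
  rw [corr_spin, corr_spin]
  exact mul_le_mul_of_nonneg_left (mono_plus hV hβ hP (disc_mono hD h ha) _)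
    (pow_nonneg (Real.rpow_nonneg ha.le _) _)

theorem corr_minus (hV : IsPotential V) (D : Set ℂ) {n : ℕ} (x : Fin n → ℂ) (a : ℝ) :
    corr a (inDom J lam V β D (some fun _ _ => false) a) ⟨n, 0, x, ![], ![]⟩
      = (-1) ^ n * corr a (inDom J lam V β D (some fun _ _ => true) a) ⟨n, 0, x, ![], ![]⟩ := by
  rw [corr_spin, corr_spin, mul_left_comm]
  exact congrArg _ (gibbs_minus hV _ _)

end Vale.Agent.P144N58
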