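import Vale.Agent.P144.H436.Gks

/-!
Griffiths inequalities for multispin ferromagnets: monotonicity in the volume.
-/

namespace Vale.Agent.P144N58

open Finset Vale.Agent.P144 Vale.Agent.P144.H436

theorem gks {ι : Type*} [Fintype ι] [DecidableEq ι] {H f g : (ι → Bool) → ℝ} (hH : Gin H)
    (hf : Gin f) (hg : Gin g) (hpos : 0 < ∑ s, g s * Real.exp (H s)) :
    (∑ s, f s * Real.exp (H s)) / ∑ s, Real.exp (H s)
      ≤ (∑ s, f s * (g s * Real.exp (H s))) / ∑ s, g s * Real.exp (H s) := by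
  have hw : MP phi2 (fun p : ι → Bool × Bool =>
      Real.exp (H fun i => (p i).1) * Real.exp (H fun i => (p i).2)) :=
    (MP.exp hH.1).congr fun p => Real.exp_add _ _
  have h1 := MP.nonneg nnm2 ((hf.2.mul hg.2).mul hw)
  rw [sum_pairs (fun s t => (f s - f t) * (g s - g t) * (Real.exp (H s) * Real.exp (H t)))] at h1
  have hZ : 0 < ∑ s, Real.exp (H s) :=
    Finset.sum_pos (fun s _ => Real.exp_pos _) ⟨fun _ => true, Finset.mem_univ _⟩
  have e : ∀ s t, (f s - f t) * (g s - g t) * (Real.exp (H s) * Real.exp (H t))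
      = (f s * (g s * Real.exp (H s))) * Real.exp (H t)
        + Real.exp (H s) * (f t * (g t * Real.exp (H t)))
        - (f s * Real.exp (H s)) * (g t * Real.exp (H t))
        - (g s * Real.exp (H s)) * (f t * Real.exp (H t)) := by
    intro s t; ring
  simp only [e, Finset.sum_sub_distrib, Finset.sum_add_distrib, ← Finset.mul_sum,
    ← Finset.sum_mul] at h1
  rw [div_le_div_iff₀ hZ hpos]
  nlinarith

theorem gin_exs {Λ : Finset Site} (x : Site) :
    Gin (fun s : Λ → Bool => sp (exs Λ (fun _ => true) s x)) := by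
  by_cases h : x ∈ Λ
  · exact (Gin.spin (⟨x, h⟩ : Λ)).congr fun s => by rw [exs_mem h]
  · exact (Gin.const zero_le_one).congr fun s => by rw [exs_not_mem h, sp_true]

variable {J lam β : ℝ} {V : Finset Site → ℝ}

theorem exists_supp (hV : IsPotential V) (J lam : ℝ) (Λ : Finset Site) :
    ∃ S : Finset (Finset Site), ∀ A, Phi J lam V A ≠ 0 → (A ⊆ Λ ∨ (A ∩ Λ).Nonempty) → A ∈ S := by
  obtain ⟨R, hR⟩ := hV.range
  refine ⟨(Λ ∪ Λ.biUnion fun x => Icc (x.1 - (|R| + 2)) (x.1 + (|R| + 2)) ×ˢ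
    Icc (x.2 - (|R| + 2)) (x.2 + (|R| + 2))).powerset, fun A hA h => mem_powerset.2 ?_⟩
  rcases h with h | ⟨x, hx⟩
  · exact h.trans subset_union_left
  intro y hy
  obtain ⟨hxA, hxΛ⟩ := mem_inter.1 hx
  have hd : dsq x y ≤ |R| + 2 := by
    by_cases hv : V A = 0
    · have he : IsEdge A := by
        by_contra he
        exact hA (by simp [Phi, he, hv])
      obtain ⟨u, v, huv, rfl⟩ := he
      have := abs_nonneg R
      have h2 := dsq_comm u v
      simp only [mem_insert, mem_singleton] at hxA hy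
      rcases hxA with rfl | rfl <;> rcases hy with rfl | rfl <;>
        first | (rw [dsq_self]; omega) | omega
    · have := hR A hv x hxA y hy
      have := le_abs_self R
      omega
  unfold dsq at hd
  refine mem_union_right _ (mem_biUnion.2 ⟨x, hxΛ, mem_product.2 ⟨mem_Icc.2 ⟨?_, ?_⟩,
    mem_Icc.2 ⟨?_, ?_⟩⟩⟩) <;>
  nlinarith [sq_nonneg (x.1 - y.1), sq_nonneg (x.2 - y.2), sq_nonneg (x.1 - y.1 - 1),
    sq_nonneg (x.1 - y.1 + 1), sq_nonneg (x.2 - y.2 - 1), sq_nonneg (x.2 - y.2 + 1), abs_nonneg R]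

open Classical in
theorem energy_eq {P : Finset Site → Prop} {S : Finset (Finset Site)}
    (hS : ∀ A, Phi J lam V A ≠ 0 → P A → A ∈ S) (β : ℝ) (σ : Config) :
    -β * energy J lam V P σ
      = ∑ A ∈ S, (if P A then β * Phi J lam V A else 0) * ∏ x ∈ A, sp (σ x) := by
  unfold energy
  simp only [finsum_eq_if]
  rw [finsum_eq_sum_of_support_subset (s := S), neg_mul_neg, mul_sum]
  · refine sum_congr rfl fun A _ => ?_
    unfold Phi
    split_ifs <;> ring
  · intro A hA
    by_cases h : P A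
    · refine hS A (fun h0 => hA ?_) h
      unfold Phi at h0
      simp only [if_pos h, h0, zero_mul]
    · exact absurd (if_neg h) hA

theorem gin_sum {Λ : Finset Site} (S : Finset (Finset Site)) {c : Finset Site → ℝ}
    (hc : ∀ A, 0 ≤ c A) :
    Gin (fun s : Λ → Bool => ∑ A ∈ S, c A * ∏ x ∈ A, sp (exs Λ (fun _ => true) s x)) :=
  Gin.sum _ fun A _ => (Gin.const (hc A)).mul (Gin.prod _ fun x _ => gin_exs x)

/-- Free boundary condition: the spin correlations grow with the volume. -/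
theorem mono_free (hV : IsPotential V) (hβ : 0 ≤ β) (hP : ∀ A, 0 ≤ Phi J lam V A)
    {Λ Λ' : Finset Site} (h : Λ ⊆ Λ') {n : ℕ} (x : Fin n → Site) (hx : ∀ i, x i ∈ Λ) :
    gibbs J lam V β none Λ (fun σ => ∏ i, sp (σ (x i)))
      ≤ gibbs J lam V β none Λ' (fun σ => ∏ i, sp (σ (x i))) := by
  classical
  obtain ⟨S, hS⟩ := exists_supp hV J lam Λ'
  have e1 := energy_eq (P := fun A => A ⊆ Λ) (fun A hA hs => hS A hA (Or.inl (hs.trans h))) β
  have e2 := energy_eq (P := fun A => A ⊆ Λ') (fun A hA hs => hS A hA (Or.inl hs)) β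
  let e : Λ ↪ Λ' := ⟨fun i => ⟨i.1, h i.2⟩, fun i j hij => Subtype.ext (congrArg (·.1) hij)⟩
  obtain ⟨c, hc, hs⟩ := sum_comp e
  have hx' : ∀ (s : Λ' → Bool) y, y ∈ Λ → exs Λ (fun _ => true) (fun i => s (e i)) y
      = exs Λ' (fun _ => true) s y := fun s y hy => by
    rw [exs_mem hy, exs_mem (h hy)]; rfl
  have hE : ∀ s : Λ' → Bool, -β * energy J lam V (fun A => A ⊆ Λ)
      (exs Λ (fun _ => true) fun i => s (e i))
      = -β * energy J lam V (fun A => A ⊆ Λ) (exs Λ' (fun _ => true) s) := by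
    intro s
    rw [e1, e1]
    refine sum_congr rfl fun A _ => ?_
    split_ifs with hA
    · rw [prod_congr rfl fun y hy => by rw [hx' s y (hA hy)]]
    · rw [zero_mul, zero_mul]
  have key := gks (ι := Λ')
    (H := fun s => -β * energy J lam V (fun A => A ⊆ Λ) (exs Λ' (fun _ => true) s))
    (f := fun s => ∏ i, sp (exs Λ' (fun _ => true) s (x i)))
    (g := fun s => Real.exp (∑ A ∈ S, (if A ⊆ Λ' ∧ ¬ A ⊆ Λ then β * Phi J lam V A else 0) *
      ∏ y ∈ A, sp (exs Λ' (fun _ => true) s y)))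
    ((gin_sum S fun A => by split_ifs; exacts [mul_nonneg hβ (hP A), le_rfl]).congr
      fun s => (e1 _).symm)
    (Gin.prod _ fun i _ => gin_exs _)
    (gin_sum S fun A => by split_ifs; exacts [mul_nonneg hβ (hP A), le_rfl]).exp
    (Finset.sum_pos (fun s _ => by positivity) ⟨fun _ => true, Finset.mem_univ _⟩)
  have e3 : ∀ σ : Config, Real.exp (∑ A ∈ S, (if A ⊆ Λ' ∧ ¬ A ⊆ Λ then β * Phi J lam V A else 0) *
      ∏ y ∈ A, sp (σ y)) * Real.exp (-β * energy J lam V (fun A => A ⊆ Λ) σ)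
      = Real.exp (-β * energy J lam V (fun A => A ⊆ Λ') σ) := by
    intro σ
    rw [← Real.exp_add, e1, e2, ← sum_add_distrib]
    refine congrArg _ (sum_congr rfl fun A _ => ?_)
    by_cases h1 : A ⊆ Λ
    · simp [h1, h1.trans h]
    · by_cases h2 : A ⊆ Λ' <;> simp [h1, h2]
  simp only [e3] at key
  unfold gibbs P144.expect
  simp only
  rw [sum_ext Λ' _ fun σ => (∏ i, sp (σ (x i))) * Real.exp (-β * energy J lam V (· ⊆ Λ') σ),
    sum_ext Λ' _ fun σ => Real.exp (-β * energy J lam V (· ⊆ Λ') σ),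
    sum_ext Λ _ fun σ => (∏ i, sp (σ (x i))) * Real.exp (-β * energy J lam V (· ⊆ Λ) σ),
    sum_ext Λ _ fun σ => Real.exp (-β * energy J lam V (· ⊆ Λ) σ)]
  refine le_trans (le_of_eq ?_) key
  rw [← mul_div_mul_left _ _ hc.ne', ← hs, ← hs]
  simp only [hE, fun s i => hx' s (x i) (hx i)]

theorem sum_plus {Λ Λ' : Finset Site} (h : Λ ⊆ Λ') (G : Config → ℝ) :
    ∑ T ∈ Λ.powerset, G (ext Λ (fun _ => true) T) = ∑ s : Λ' → Bool,
      (∏ y ∈ Λ' \ Λ, 1 / 2 * (1 + sp (exs Λ' (fun _ => true) s y))) *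
        G (exs Λ' (fun _ => true) s) := by
  rw [← sum_ext Λ' _ fun σ => (∏ y ∈ Λ' \ Λ, 1 / 2 * (1 + sp (σ y))) * G σ]
  have e : ∀ T ∈ Λ'.powerset, (∏ y ∈ Λ' \ Λ, 1 / 2 * (1 + sp (ext Λ' (fun _ => true) T y))) *
      G (ext Λ' (fun _ => true) T) = if Λ' \ Λ ⊆ T then G (ext Λ' (fun _ => true) T) else 0 := by
    intro T _
    split_ifs with hT
    · rw [prod_eq_one, one_mul]
      intro y hy
      simp only [P144.ext, if_pos (mem_sdiff.1 hy).1, decide_eq_true (hT hy), sp_true]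
      norm_num
    · obtain ⟨y, hy, hyT⟩ := not_subset.1 hT
      rw [prod_eq_zero hy, zero_mul]
      simp only [P144.ext, if_pos (mem_sdiff.1 hy).1, decide_eq_false hyT, sp_false]
      norm_num
  rw [sum_congr rfl e, ← sum_filter]
  refine sum_nbij' (fun T => T ∪ Λ' \ Λ) (fun T => T ∩ Λ) ?_ ?_ ?_ ?_ ?_
  · intro T hT
    exact mem_filter.2 ⟨mem_powerset.2 (union_subset ((mem_powerset.1 hT).trans h) sdiff_subset),
      subset_union_right⟩
  · intro T _
    exact mem_powerset.2 inter_subset_right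
  · intro T hT
    have := mem_powerset.1 hT
    ext y
    have := @this y
    simp only [mem_inter, mem_union, mem_sdiff]
    tauto
  · intro T hT
    have h1 := mem_powerset.1 (mem_filter.1 hT).1
    have h2 := (mem_filter.1 hT).2
    ext y
    have h1 := @h1 y
    have h2 := @h2 y
    simp only [mem_inter, mem_union, mem_sdiff] at h2 ⊢
    tauto
  · intro T hT
    congr 1
    funext y
    have h1 := @mem_powerset.1 hT y
    have h2 := @h y
    unfold P144.ext
    by_cases hy : y ∈ Λ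
    · simp [hy, h hy]
    · by_cases hy' : y ∈ Λ' <;> simp [hy, hy']

/-- Plus boundary condition: the spin correlations decrease with the volume. -/
theorem mono_plus (hV : IsPotential V) (hβ : 0 ≤ β) (hP : ∀ A, 0 ≤ Phi J lam V A)
    {Λ Λ' : Finset Site} (h : Λ ⊆ Λ') {n : ℕ} (x : Fin n → Site) :
    gibbs J lam V β (some fun _ => true) Λ' (fun σ => ∏ i, sp (σ (x i)))
      ≤ gibbs J lam V β (some fun _ => true) Λ (fun σ => ∏ i, sp (σ (x i))) := by
  classical
  obtain ⟨S, hS⟩ := exists_supp hV J lam Λ'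
  have sub : ∀ A : Finset Site, (A ∩ Λ).Nonempty → (A ∩ Λ').Nonempty := fun A hA =>
    hA.mono (inter_subset_inter_left h)
  have e1 := energy_eq (P := fun A => (A ∩ Λ).Nonempty)
    (fun A hA hs => hS A hA (Or.inr (sub A hs))) β
  have e2 := energy_eq (P := fun A => (A ∩ Λ').Nonempty) (fun A hA hs => hS A hA (Or.inr hs)) β
  set c := Real.exp (∑ A ∈ S, if (A ∩ Λ').Nonempty ∧ ¬ (A ∩ Λ).Nonempty
    then β * Phi J lam V A else 0) with hc
  have e3 : ∀ T, Real.exp (-β * energy J lam V (fun A => (A ∩ Λ').Nonempty)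
      (ext Λ (fun _ => true) T)) = c * Real.exp (-β * energy J lam V (fun A => (A ∩ Λ).Nonempty)
        (ext Λ (fun _ => true) T)) := by
    intro T
    rw [hc, ← Real.exp_add, e1, e2, ← sum_add_distrib]
    refine congrArg _ (sum_congr rfl fun A _ => ?_)
    by_cases h1 : (A ∩ Λ).Nonempty
    · simp [h1, sub A h1]
    · have h3 : ∏ y ∈ A, sp (ext Λ (fun _ => true) T y) = 1 := prod_eq_one fun y hy => by
        have : y ∉ Λ := fun hy' => h1 ⟨y, mem_inter.2 ⟨hy, hy'⟩⟩
        simp only [P144.ext, if_neg this, sp_true]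
      by_cases h2 : (A ∩ Λ').Nonempty <;> simp [h1, h2, h3]
  have s1 := sum_plus h fun σ => Real.exp (-β * energy J lam V (fun A => (A ∩ Λ').Nonempty) σ)
  have s2 := sum_plus h fun σ => (∏ i, sp (σ (x i))) *
    Real.exp (-β * energy J lam V (fun A => (A ∩ Λ').Nonempty) σ)
  have key := gks (ι := Λ')
    (H := fun s => -β * energy J lam V (fun A => (A ∩ Λ').Nonempty) (exs Λ' (fun _ => true) s))
    (f := fun s => ∏ i, sp (exs Λ' (fun _ => true) s (x i)))
    (g := fun s => ∏ y ∈ Λ' \ Λ, 1 / 2 * (1 + sp (exs Λ' (fun _ => true) s y)))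
    ((gin_sum S fun A => by split_ifs; exacts [mul_nonneg hβ (hP A), le_rfl]).congr
      fun s => (e2 _).symm)
    (Gin.prod _ fun i _ => gin_exs _)
    (Gin.prod _ fun y _ => (Gin.const (by norm_num)).mul ((Gin.const zero_le_one).add (gin_exs y)))
    (by rw [← s1]; exact Finset.sum_pos (fun s _ => Real.exp_pos _) ⟨∅, by simp⟩)
  simp only [mul_left_comm (∏ i, sp (exs Λ' (fun _ => true) _ (x i)))] at key
  rw [← s1, ← s2] at key
  simp only [e3, mul_left_comm _ c, ← mul_sum] at key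
  rw [mul_div_mul_left _ _ (Real.exp_pos _).ne'] at key
  unfold gibbs P144.expect
  simp only
  rw [sum_ext Λ' _ fun σ => (∏ i, sp (σ (x i))) *
      Real.exp (-β * energy J lam V (fun A => (A ∩ Λ').Nonempty) σ),
    sum_ext Λ' _ fun σ => Real.exp (-β * energy J lam V (fun A => (A ∩ Λ').Nonempty) σ)]
  exact key

end Vale.Agent.P144N58
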