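import Vale.Agent.P144N58.Corr
import Vale.Agent.P144N16.Cnt
import Vale.Agent.P144N16.Dom
import Vale.Agent.P144A.Stmt

/-!
Spin correlations of ferromagnetic perturbations in nested families of arbitrary bounded sets.
-/

namespace Vale.Agent.P144N58

open Filter Topology Vale.Agent.P144 Vale.Agent.P144Z

theorem diff_of_loc {D : Set ℂ} {E₀ E : Fam} {Z Y : ℝ} (h : LocDiff D E₀ E Z Y) :
    Diff D E₀ E Z Y := fun p hp => (h p.n p.m p.j).tendsto_at (a := (p.x, p.y)) hp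

theorem pot0 : IsPotential fun _ => 0 :=
  ⟨rfl, fun _ h => absurd rfl h, ⟨0, fun _ h => absurd rfl h⟩, fun _ _ => rfl, fun _ => rfl,
    fun _ => rfl⟩

theorem phi0 {J : ℝ} (hJ : 0 < J) (A : Finset Site) : 0 ≤ Phi J 0 (fun _ => 0) A := by
  unfold Phi
  split_ifs <;> simp [hJ.le]

theorem beta0 {J : ℝ} (hJ : 0 < J) : 0 ≤ Kc / J := by
  refine div_nonneg (div_nonneg (Real.log_nonneg ?_) zero_le_two) hJ.le
  linarith [Real.sqrt_nonneg 2]

variable {J lam β Z Y : ℝ} {V : Finset Site → ℝ}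

theorem between {D D' : Set ℂ} (hD : Bornology.IsBounded D') (h : closure D ⊆ interior D') :
    ∃ P, IsC1 P ∧ D ⊆ P ∧ P ⊆ D' := by
  obtain ⟨P, h1, h2, h3⟩ := P144N16.exists_c1
    (Metric.isCompact_of_isClosed_isBounded isClosed_closure
      (hD.subset (h.trans interior_subset))) isOpen_interior h
  exact ⟨P, h1, subset_closure.trans h2, subset_closure.trans (h3.trans interior_subset)⟩

theorem near {P : Set ℂ} {E₀ E : Fam} (hL : Diff P E₀ E Z Y) {n : ℕ} (hn : 0 < n) {x : Fin n → ℂ}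
    (hi : Function.Injective x) (hx : ∀ i, x i ∈ P) {ε : ℝ} (hε : 0 < ε) : ∀ᶠ a in 𝓝[>] (0:ℝ),
    |corr a (E a) ⟨n, 0, x, ![], ![]⟩ - Z ^ n * corr a (E₀ a) ⟨n, 0, x, ![], ![]⟩| < ε := by
  have hg : Good P ⟨n, 0, x, ![], ![]⟩ := by
    refine ⟨hn, hx, fun k => k.elim0, ?_⟩
    rintro (i | i) (j | j) hij
    exacts [congrArg _ (hi hij), j.elim0, i.elim0, i.elim0]
  simpa only [Real.dist_eq, sub_zero, pow_zero, mul_one] using
    Metric.tendsto_nhds.1 (hL _ hg) ε hε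

theorem sand_free (hJ : 0 < J) (hV : IsPotential V) (hβ : 0 ≤ β) (hZ : 0 ≤ Z)
    (hP : ∀ A, 0 ≤ Phi J lam V A)
    (hL : ∀ P, IsC1 P → Diff P (crit J P none) (inDom J lam V β P none) Z Y)
    {D D' : Set ℂ} (hD : Bornology.IsBounded D') (h : closure D ⊆ interior D') {n : ℕ} (hn : 0 < n)
    {x : Fin n → ℂ} (hi : Function.Injective x) (hx : ∀ i, D ∈ 𝓝 (x i)) {ε : ℝ} (hε : 0 < ε) :
    ∀ᶠ a in 𝓝[>] (0:ℝ), corr a (inDom J lam V β D none a) ⟨n, 0, x, ![], ![]⟩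
        ≤ Z ^ n * corr a (crit J D' none a) ⟨n, 0, x, ![], ![]⟩ + ε ∧
      Z ^ n * corr a (crit J D none a) ⟨n, 0, x, ![], ![]⟩
        ≤ corr a (inDom J lam V β D' none a) ⟨n, 0, x, ![], ![]⟩ + ε := by
  obtain ⟨P, c, h1, h2⟩ := between hD h
  have hx' : ∀ i, P ∈ 𝓝 (x i) := fun i => mem_of_superset (hx i) h1
  filter_upwards [near (hL P c) hn hi (fun i => mem_of_mem_nhds (hx' i)) hε,
    corr_free hV hβ hP c.1 h1 hx, corr_free hV hβ hP hD h2 hx',
    corr_free pot0 (beta0 hJ) (phi0 hJ) c.1 h1 hx,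
    corr_free pot0 (beta0 hJ) (phi0 hJ) hD h2 hx'] with a a1 a2 a3 a4 a5
  have a6 := mul_le_mul_of_nonneg_left a4 (pow_nonneg hZ n)
  have a7 := mul_le_mul_of_nonneg_left a5 (pow_nonneg hZ n)
  rw [abs_lt] at a1
  unfold crit at a1 ⊢
  constructor <;> linarith [a1.1, a1.2]

theorem sand_plus (hJ : 0 < J) (hV : IsPotential V) (hβ : 0 ≤ β) (hZ : 0 ≤ Z)
    (hP : ∀ A, 0 ≤ Phi J lam V A)
    (hL : ∀ P, IsC1 P → Diff P (crit J P (some fun _ _ => true))
      (inDom J lam V β P (some fun _ _ => true)) Z Y)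
    {D D' : Set ℂ} (hD : Bornology.IsBounded D') (h : closure D ⊆ interior D') {n : ℕ} (hn : 0 < n)
    {x : Fin n → ℂ} (hi : Function.Injective x) (hx : ∀ i, x i ∈ D) {ε : ℝ} (hε : 0 < ε) :
    ∀ᶠ a in 𝓝[>] (0:ℝ), Z ^ n * corr a (crit J D' (some fun _ _ => true) a) ⟨n, 0, x, ![], ![]⟩
        ≤ corr a (inDom J lam V β D (some fun _ _ => true) a) ⟨n, 0, x, ![], ![]⟩ + ε ∧
      corr a (inDom J lam V β D' (some fun _ _ => true) a) ⟨n, 0, x, ![], ![]⟩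
        ≤ Z ^ n * corr a (crit J D (some fun _ _ => true) a) ⟨n, 0, x, ![], ![]⟩ + ε := by
  obtain ⟨P, c, h1, h2⟩ := between hD h
  filter_upwards [near (hL P c) hn hi (fun i => h1 (hx i)) hε, self_mem_nhdsWithin] with a a1 ha
  have a2 := corr_plus hV hβ hP c.1 h1 x ha
  have a3 := corr_plus hV hβ hP hD h2 x ha
  have a6 := mul_le_mul_of_nonneg_left (corr_plus pot0 (beta0 hJ) (phi0 hJ) c.1 h1 x ha)
    (pow_nonneg hZ n)
  have a7 := mul_le_mul_of_nonneg_left (corr_plus pot0 (beta0 hJ) (phi0 hJ) hD h2 x ha)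
    (pow_nonneg hZ n)
  rw [abs_lt] at a1
  unfold crit at a1 ⊢
  constructor <;> linarith [a1.1, a1.2]

/-- The identity for spins in all but countably many members of a nested family. -/
theorem nested (hJ : 0 < J) (hV : IsPotential V) (hβ : 0 ≤ β) (hZ : 0 ≤ Z)
    (hP : ∀ A, 0 ≤ Phi J lam V A)
    (hL : ∀ P, IsC1 P → ∀ b, StdBC b → Diff P (crit J P b) (inDom J lam V β P b) Z Y)
    {I : Set ℝ} (hI : IsOpen I) (hc : I.OrdConnected) {D : ℝ → Set ℂ}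
    (hD : ∀ t ∈ I, Bornology.IsBounded (D t))
    (h : ∀ s ∈ I, ∀ t ∈ I, s < t → closure (D s) ⊆ interior (D t)) {b : Option (ℝ → Config)}
    (hb : StdBC b) {n : ℕ} (hn : 0 < n) {x : Fin n → ℂ} (hi : Function.Injective x)
    (hx : ∀ t ∈ I, ∀ i, x i ∈ D t) :
    {t ∈ I | ∃ c, Lim (crit J (D t) b) ⟨n, 0, x, ![], ![]⟩ c ∧
      ¬ Lim (inDom J lam V β (D t) b) ⟨n, 0, x, ![], ![]⟩ (Z ^ n * c)}.Countable := by
  have hx' : ∀ t ∈ I, ∀ i, D t ∈ 𝓝 (x i) := by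
    intro t ht i
    have h1 : ∀ᶠ s in 𝓝[<] t, s ∈ I := mem_nhdsWithin_of_mem_nhds (hI.mem_nhds ht)
    obtain ⟨s, hs, hst⟩ := (h1.and self_mem_nhdsWithin).exists
    exact mem_interior_iff_mem_nhds.1 (h s hs t ht hst (subset_closure (hx s hs i)))
  have plus := P144N16.sandwich hI hc (l := 𝓝[>] (0:ℝ))
    (u := fun t a => -corr a (inDom J lam V β (D t) (some fun _ _ => true) a) ⟨n, 0, x, ![], ![]⟩)
    (w := fun t a => -(Z ^ n * corr a (crit J (D t) (some fun _ _ => true) a) ⟨n, 0, x, ![], ![]⟩))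
    fun s hs t ht hst ε hε => (sand_plus hJ hV hβ hZ hP (fun P c => hL P c _ (Or.inr (Or.inl rfl)))
      (hD t ht) (h s hs t ht hst) hn hi (hx s hs) hε).mono fun a ha =>
        ⟨by linarith [ha.1], by linarith [ha.2]⟩
  rcases hb with rfl | rfl | rfl
  · refine (P144N16.sandwich hI hc (l := 𝓝[>] (0:ℝ))
      (u := fun t a => corr a (inDom J lam V β (D t) none a) ⟨n, 0, x, ![], ![]⟩)
      (w := fun t a => Z ^ n * corr a (crit J (D t) none a) ⟨n, 0, x, ![], ![]⟩)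
      fun s hs t ht hst ε hε => sand_free hJ hV hβ hZ hP (fun P c => hL P c _ (Or.inl rfl))
        (hD t ht) (h s hs t ht hst) hn hi (hx' s hs) hε).mono ?_
    rintro t ⟨ht, c, h1, h2⟩
    exact ⟨ht, _, h1.const_mul _, h2⟩
  · refine plus.mono ?_
    rintro t ⟨ht, c, h1, h2⟩
    exact ⟨ht, _, (h1.const_mul _).neg, fun h3 => h2 (tendsto_neg_iff.1 h3)⟩
  · refine plus.mono ?_
    rintro t ⟨ht, c, h1, h2⟩
    have e : ((-1 : ℝ) ^ n) * (-1) ^ n = 1 := by rw [← mul_pow]; norm_num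
    unfold Lim crit at h1
    unfold Lim at h2
    simp only [corr_minus pot0] at h1
    simp only [corr_minus hV] at h2
    have h4 := h1.const_mul ((-1) ^ n)
    simp only [← mul_assoc, e, one_mul] at h4
    refine ⟨ht, _, (h4.const_mul _).neg, fun h3 => h2 ?_⟩
    have h5 := (tendsto_neg_iff.1 h3).const_mul ((-1) ^ n)
    rwa [mul_left_comm, ← mul_assoc ((-1 : ℝ) ^ n), e, one_mul] at h5

end Vale.Agent.P144N58
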